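import Vale.Agent.Lib.P046D.Defs
import Vale.Agent.Lib.P046.Defs

/-!
# The stopped graph and its law
-/

open MeasureTheory ProbabilityTheory
open scoped ENNReal

namespace Vale.Agent.P046D

open Vale.Agent.P046 (removeTriangle step processFrom)

variable {n : ℕ}

theorem rest_zero (t : ℕ → Finset (Fin n)) : rest t 0 = ⊤ := by
  ext u v
  simp [rest]

theorem rest_succ (t : ℕ → Finset (Fin n)) (k : ℕ) :
    rest t (k + 1) = removeTriangle (rest t k) (t k) := by
  unfold rest removeTriangle
  rw [SimpleGraph.deleteEdges_deleteEdges]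
  congr 1
  ext e
  simp only [Set.mem_union, Set.mem_ofPred_eq, Nat.lt_succ_iff_lt_or_eq]
  constructor
  · rintro ⟨i, hi | rfl, h⟩
    · exact Or.inl ⟨i, hi, h⟩
    · exact Or.inr h
  · rintro (⟨i, hi, h⟩ | h)
    · exact ⟨i, Or.inl hi, h⟩
    · exact ⟨k, Or.inr rfl, h⟩

theorem rest_congr {t u : ℕ → Finset (Fin n)} {k : ℕ} (h : ∀ i < k, t i = u i) :
    rest t k = rest u k := by
  induction k with
  | zero => rw [rest_zero, rest_zero]
  | succ k ih =>
    rw [rest_succ, rest_succ, ih fun i hi => h i (hi.trans (Nat.lt_succ_self k)),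
      h k (Nat.lt_succ_self k)]

theorem rest_anti (t : ℕ → Finset (Fin n)) {j k : ℕ} (h : j ≤ k) : rest t k ≤ rest t j := by
  induction k, h using Nat.le_induction with
  | base => exact le_rfl
  | succ k _ ih =>
    rw [rest_succ]
    exact (SimpleGraph.deleteEdges_le _).trans ih

theorem triangles_empty_iff (G : SimpleGraph (Fin n)) : triangles G = ∅ ↔ G.CliqueFree 3 := by
  unfold triangles SimpleGraph.CliqueFree
  rw [Set.eq_empty_iff_forall_notMem]
  rfl

theorem rest_free_mono (t : ℕ → Finset (Fin n)) {j k : ℕ} (h : j ≤ k)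
    (hj : (rest t j).CliqueFree 3) : (rest t k).CliqueFree 3 := hj.anti (rest_anti t h)

open Classical in
/-- the stopped graph after `k` steps -/
noncomputable def Hs (t : ℕ → Finset (Fin n)) : ℕ → SimpleGraph (Fin n)
  | 0 => ⊤
  | k + 1 => if (Hs t k).CliqueFree 3 then Hs t k else removeTriangle (Hs t k) (t k)

theorem Hs_zero (t : ℕ → Finset (Fin n)) : Hs t 0 = ⊤ := rfl

theorem Hs_succ_free (t : ℕ → Finset (Fin n)) {k : ℕ} (h : (Hs t k).CliqueFree 3) :
    Hs t (k + 1) = Hs t k := by
  rw [Hs, if_pos h]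

theorem Hs_succ_not (t : ℕ → Finset (Fin n)) {k : ℕ} (h : ¬ (Hs t k).CliqueFree 3) :
    Hs t (k + 1) = removeTriangle (Hs t k) (t k) := by
  rw [Hs, if_neg h]

theorem Hs_congr {t u : ℕ → Finset (Fin n)} {k : ℕ} (h : ∀ i < k, t i = u i) :
    Hs t k = Hs u k := by
  induction k with
  | zero => rfl
  | succ k ih =>
    have h1 : Hs t k = Hs u k := ih fun i hi => h i (hi.trans (Nat.lt_succ_self k))
    by_cases h2 : (Hs t k).CliqueFree 3
    · rw [Hs_succ_free t h2, Hs_succ_free u (h1 ▸ h2), h1]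
    · rw [Hs_succ_not t h2, Hs_succ_not u (h1 ▸ h2), h1, h k (Nat.lt_succ_self k)]

theorem Hs_eq_of_not {t : ℕ → Finset (Fin n)} {k : ℕ} (h : ¬ (Hs t k).CliqueFree 3) :
    Hs t k = rest t k := by
  induction k with
  | zero => rw [rest_zero]; rfl
  | succ k ih =>
    have h2 : ¬ (Hs t k).CliqueFree 3 := fun h2 => h (by rw [Hs_succ_free t h2]; exact h2)
    rw [Hs_succ_not t h2, rest_succ, ih h2]

theorem Hs_eq_of_rest_not {t : ℕ → Finset (Fin n)} {k : ℕ} (h : ¬ (rest t k).CliqueFree 3) :
    Hs t k = rest t k := by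
  induction k with
  | zero => rw [rest_zero]; rfl
  | succ k ih =>
    have h1 : ¬ (rest t k).CliqueFree 3 := fun h1 => h (rest_free_mono t (Nat.le_succ k) h1)
    have h2 := ih h1
    have h3 : ¬ (Hs t k).CliqueFree 3 := by
      rw [h2]
      exact h1
    rw [Hs_succ_not t h3, rest_succ, h2]

theorem rest_stop {t : ℕ → Finset (Fin n)} {k : ℕ} (h : (Hs t k).CliqueFree 3) :
    rest t (sInf {k | triangles (rest t k) = ∅}) = Hs t k := by
  have hset : {k | triangles (rest t k) = ∅} = {k | (rest t k).CliqueFree 3} := by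
    ext j
    exact triangles_empty_iff _
  rw [hset]
  induction k with
  | zero =>
    have h0 : (0 : ℕ) ∈ {k | (rest t k).CliqueFree 3} := by
      change (rest t 0).CliqueFree 3
      rw [rest_zero]
      exact h
    have h1 : sInf {k | (rest t k).CliqueFree 3} = 0 := Nat.le_zero.1 (Nat.sInf_le h0)
    rw [h1, rest_zero]
    rfl
  | succ k ih =>
    by_cases h2 : (Hs t k).CliqueFree 3
    · rw [ih h2, Hs_succ_free t h2]
    · have h3 : Hs t k = rest t k := Hs_eq_of_not h2
      have h4 : Hs t (k + 1) = rest t (k + 1) := by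
        rw [Hs_succ_not t h2, h3, rest_succ]
      have h5 : k + 1 ∈ {k | (rest t k).CliqueFree 3} := by
        change (rest t (k + 1)).CliqueFree 3
        rw [← h4]
        exact h
      have h6 : sInf {k | (rest t k).CliqueFree 3} = k + 1 := by
        refine le_antisymm (Nat.sInf_le h5) ?_
        by_contra h7
        have h8 : sInf {k | (rest t k).CliqueFree 3} ≤ k := by omega
        have h9 := Nat.sInf_mem (⟨k + 1, h5⟩ : {k | (rest t k).CliqueFree 3}.Nonempty)
        exact h2 (h3 ▸ rest_free_mono t h8 h9)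
      rw [h6, h4]

theorem measure_zero_of_forall {Ω : Type*} [MeasurableSpace Ω] (P : Measure Ω) {S : Set Ω}
    (h : ∀ ω, ω ∉ S) : P S = 0 := by
  rw [Set.eq_empty_iff_forall_notMem.2 h, measure_empty]

/-- law of total probability for a random variable with finitely many values -/
theorem sum_fib {Ω α : Type*} [MeasurableSpace Ω] (P : Measure Ω) [Fintype α] (X : Ω → α)
    (hX : ∀ a, MeasurableSet (X ⁻¹' {a})) (B : Set Ω) : P B = ∑ a, P (X ⁻¹' {a} ∩ B) := by
  have h1 := sum_measure_preimage_singleton (μ := P.restrict B) Finset.univ (f := X)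
    (fun y _ => hX y)
  rw [Finset.coe_univ, Set.preimage_univ, Measure.restrict_apply_univ] at h1
  rw [← h1]
  exact Finset.sum_congr rfl fun a _ => Measure.restrict_apply (hX a)

/-- a finite history, continued by the empty set -/
def ext {k : ℕ} (t : Fin k → Finset (Fin n)) : ℕ → Finset (Fin n) :=
  fun i => if h : i < k then t ⟨i, h⟩ else ∅

theorem ext_apply {k : ℕ} (t : Fin k → Finset (Fin n)) {i : ℕ} (hi : i < k) :
    ext t i = t ⟨i, hi⟩ := dif_pos hi

/-- the first `k` choices -/
def hist {Ω : Type*} (T : ℕ → Ω → Finset (Fin n)) (k : ℕ) (ω : Ω) : Fin k → Finset (Fin n) :=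
  fun i => T i ω

theorem hist_fib {Ω : Type*} (T : ℕ → Ω → Finset (Fin n)) (k : ℕ) (t : Fin k → Finset (Fin n)) :
    hist T k ⁻¹' {t} = {ω | ∀ i < k, T i ω = ext t i} := by
  ext ω
  simp only [Set.mem_preimage, Set.mem_singleton_iff, Set.mem_ofPred_eq]
  constructor
  · rintro rfl i hi
    rw [ext_apply _ hi]
    rfl
  · intro h
    funext i
    have h1 := h i i.isLt
    rw [ext_apply _ i.isLt] at h1
    exact h1

section

variable {Ω : Type*} [MeasurableSpace Ω] (P : Measure Ω) (T : ℕ → Ω → Finset (Fin n))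

theorem meas_hist (hm : ∀ k s, MeasurableSet {ω | T k ω = s}) (k : ℕ)
    (t : ℕ → Finset (Fin n)) : MeasurableSet {ω | ∀ i < k, T i ω = t i} := by
  have h1 : {ω | ∀ i < k, T i ω = t i} = ⋂ i ∈ Finset.range k, {ω | T i ω = t i} := by
    ext ω
    simp
  rw [h1]
  exact Finset.measurableSet_biInter _ fun i _ => hm i (t i)

theorem meas_hist_fib (hm : ∀ k s, MeasurableSet {ω | T k ω = s}) (k : ℕ)
    (t : Fin k → Finset (Fin n)) : MeasurableSet (hist T k ⁻¹' {t}) := by
  rw [hist_fib]
  exact meas_hist T hm k _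

theorem meas_comp (hm : ∀ k s, MeasurableSet {ω | T k ω = s}) (k : ℕ)
    (S : Set (Fin k → Finset (Fin n))) : MeasurableSet (hist T k ⁻¹' S) := by
  have h1 : hist T k ⁻¹' S = ⋃ t ∈ S, hist T k ⁻¹' {t} := by
    ext ω
    simp
  rw [h1]
  exact S.toFinite.measurableSet_biUnion fun t _ => meas_hist_fib T hm k t

omit [MeasurableSpace Ω] in
theorem Hs_hist (ω : Ω) (k : ℕ) : Hs (fun i => T i ω) k = Hs (ext (hist T k ω)) k := by
  refine Hs_congr fun i hi => ?_
  rw [ext_apply _ hi]
  rfl

theorem meas_Hs (hm : ∀ k s, MeasurableSet {ω | T k ω = s}) (k : ℕ)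
    (S : Set (SimpleGraph (Fin n))) : MeasurableSet {ω | Hs (fun i => T i ω) k ∈ S} := by
  have h1 : {ω | Hs (fun i => T i ω) k ∈ S} = hist T k ⁻¹' {t | Hs (ext t) k ∈ S} := by
    ext ω
    simp only [Set.mem_ofPred_eq, Set.mem_preimage, ← Hs_hist]
  rw [h1]
  exact meas_comp T hm k _

/-- the hypothesis in product form -/
def Unif (k : ℕ) : Prop := ∀ (t : ℕ → Finset (Fin n)) (s : Finset (Fin n)),
  s ∈ triangles (rest t k) → P ({ω | ∀ i < k, T i ω = t i} ∩ {ω | T k ω = s}) =
    P {ω | ∀ i < k, T i ω = t i} * ((triangles (rest t k)).ncard : ℝ≥0∞)⁻¹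

open Classical in
theorem card_triangles (G : SimpleGraph (Fin n)) :
    (triangles G).ncard = (G.cliqueFinset 3).card := by
  rw [← Set.ncard_coe_finset]
  congr 1
  ext s
  simp [triangles]

open Classical in
/-- one step of the law -/
theorem step_law [IsFiniteMeasure P] (hm : ∀ k s, MeasurableSet {ω | T k ω = s}) {k : ℕ}
    (hu : Unif P T k) (t : Fin k → Finset (Fin n)) (g : SimpleGraph (Fin n)) :
    P (hist T k ⁻¹' {t} ∩ {ω | Hs (fun i => T i ω) (k + 1) = g}) =
      P (hist T k ⁻¹' {t}) * step (Hs (ext t) k) g := by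
  have hH : ∀ ω ∈ hist T k ⁻¹' {t}, Hs (fun i => T i ω) k = Hs (ext t) k := by
    intro ω hω
    rw [Hs_hist]
    rw [Set.mem_preimage, Set.mem_singleton_iff] at hω
    rw [hω]
  by_cases hf : (Hs (ext t) k).CliqueFree 3
  · have hstep : step (Hs (ext t) k) = PMF.pure (Hs (ext t) k) := by
      unfold step
      rw [dif_neg]
      rw [Finset.not_nonempty_iff_eq_empty, SimpleGraph.cliqueFinset_eq_empty_iff]
      exact hf
    rw [hstep, PMF.pure_apply]
    by_cases hg : g = Hs (ext t) k
    · rw [if_pos hg, mul_one]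
      congr 1
      refine Set.inter_eq_left.2 fun ω hω => ?_
      have h1 : (Hs (fun i => T i ω) k).CliqueFree 3 := by
        rw [hH ω hω]
        exact hf
      rw [Set.mem_ofPred_eq, Hs_succ_free _ h1, hH ω hω, hg]
    · rw [if_neg hg, mul_zero]
      refine measure_zero_of_forall P ?_
      rintro ω ⟨hω, h2⟩
      have h1 : (Hs (fun i => T i ω) k).CliqueFree 3 := by
        rw [hH ω hω]
        exact hf
      rw [Set.mem_ofPred_eq, Hs_succ_free _ h1, hH ω hω] at h2
      exact hg h2.symm
  · have hG : Hs (ext t) k = rest (ext t) k := Hs_eq_of_not hf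
    set G : SimpleGraph (Fin n) := Hs (ext t) k with hGdef
    set E : Set Ω := hist T k ⁻¹' {t} with hE
    have hEm : MeasurableSet E := meas_hist_fib T hm k t
    have hne : (G.cliqueFinset 3).Nonempty := by
      rw [Finset.nonempty_iff_ne_empty]
      intro h
      rw [SimpleGraph.cliqueFinset_eq_empty_iff] at h
      exact hf h
    set C : ℕ := (G.cliqueFinset 3).card with hC
    have hC0 : (C : ℝ≥0∞) ≠ 0 := by
      rw [Nat.cast_ne_zero]
      exact (Finset.card_pos.2 hne).ne'
    have hCt : (C : ℝ≥0∞) ≠ ⊤ := ENNReal.natCast_ne_top C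
    have hE' : E = {ω | ∀ i < k, T i ω = ext t i} := hist_fib T k t
    have htri : ∀ s ∈ G.cliqueFinset 3, P (E ∩ {ω | T k ω = s}) = P E * (C : ℝ≥0∞)⁻¹ := by
      intro s hs
      have h1 := hu (ext t) s (by
        change (rest (ext t) k).IsNClique 3 s
        rw [← hG]
        exact SimpleGraph.mem_cliqueFinset_iff.1 hs)
      rw [← hE', card_triangles, ← hG] at h1
      exact h1
    have hsum : P E = ∑ s, P ({ω | T k ω = s} ∩ E) := by
      have := sum_fib P (T k) (fun s => hm k s) E
      exact this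
    have hzero : ∀ s, s ∉ G.cliqueFinset 3 → P ({ω | T k ω = s} ∩ E) = 0 := by
      have h1 : ∑ s ∈ G.cliqueFinset 3, P ({ω | T k ω = s} ∩ E) = P E := by
        have h2 : ∀ s ∈ G.cliqueFinset 3, P ({ω | T k ω = s} ∩ E) = P E * (C : ℝ≥0∞)⁻¹ := by
          intro s hs
          rw [Set.inter_comm]
          exact htri s hs
        rw [Finset.sum_congr rfl h2, Finset.sum_const, nsmul_eq_mul, ← hC, mul_comm (P E),
          ← mul_assoc, ENNReal.mul_inv_cancel hC0 hCt, one_mul]
      have h3 : P E = ∑ s ∈ G.cliqueFinset 3, P ({ω | T k ω = s} ∩ E) +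
          ∑ s ∈ (G.cliqueFinset 3)ᶜ, P ({ω | T k ω = s} ∩ E) := by
        rw [Finset.sum_add_sum_compl]
        exact hsum
      rw [h1] at h3
      have h4 : ∑ s ∈ (G.cliqueFinset 3)ᶜ, P ({ω | T k ω = s} ∩ E) = 0 := by
        have h5 : P E + 0 = P E + ∑ s ∈ (G.cliqueFinset 3)ᶜ, P ({ω | T k ω = s} ∩ E) := by
          rw [add_zero]
          exact h3
        exact ((ENNReal.add_right_inj (measure_ne_top P E)).1 h5).symm
      intro s hs
      exact (Finset.sum_eq_zero_iff.1 h4) s (Finset.mem_compl.2 hs)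
    have hstep : step G g = ∑ s ∈ G.cliqueFinset 3,
        (if g = removeTriangle G s then (C : ℝ≥0∞)⁻¹ else 0) := by
      unfold step
      rw [dif_pos hne, PMF.map_apply, tsum_fintype]
      rw [← Finset.sum_subset (Finset.subset_univ (G.cliqueFinset 3))]
      · refine Finset.sum_congr rfl fun s hs => ?_
        rw [PMF.uniformOfFinset_apply_of_mem hne hs]
      · intro s _ hs
        rw [PMF.uniformOfFinset_apply_of_notMem hne hs, ite_self]
    have hfib := sum_fib P (T k) (fun s => hm k s) (E ∩ {ω | Hs (fun i => T i ω) (k + 1) = g})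
    rw [hfib, hstep, Finset.mul_sum,
      ← Finset.sum_subset (Finset.subset_univ (G.cliqueFinset 3))]
    · refine Finset.sum_congr rfl fun s hs => ?_
      have h6 : ∀ ω ∈ E, T k ω = s → Hs (fun i => T i ω) (k + 1) = removeTriangle G s := by
        intro ω hω hs'
        have h1 : ¬ (Hs (fun i => T i ω) k).CliqueFree 3 := by
          rw [hH ω hω]
          exact hf
        rw [Hs_succ_not _ h1, hH ω hω, hs']
      by_cases hg : g = removeTriangle G s
      · rw [if_pos hg, ← htri s hs]
        congr 1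
        ext ω
        simp only [Set.mem_inter_iff, Set.mem_preimage, Set.mem_singleton_iff, Set.mem_ofPred_eq]
        constructor
        · rintro ⟨h7, h8, -⟩
          exact ⟨h8, h7⟩
        · rintro ⟨h8, h7⟩
          exact ⟨h7, h8, (h6 ω h8 h7).trans hg.symm⟩
      · rw [if_neg hg, mul_zero]
        refine measure_zero_of_forall P ?_
        rintro ω ⟨h7, h8, h9⟩
        exact hg ((show Hs (fun i => T i ω) (k + 1) = g from h9).symm.trans (h6 ω h8 h7))
    · intro s _ hs
      refine measure_mono_null ?_ (hzero s hs)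
      rintro ω ⟨h7, h8, -⟩
      exact ⟨h7, h8⟩

/-- the law of the stopped graph -/
theorem law_Hs [IsProbabilityMeasure P] (hm : ∀ k s, MeasurableSet {ω | T k ω = s}) {N : ℕ}
    (hu : ∀ k < N, Unif P T k) {k : ℕ} (hk : k ≤ N) (g : SimpleGraph (Fin n)) :
    P {ω | Hs (fun i => T i ω) k = g} = processFrom (⊤ : SimpleGraph (Fin n)) k g := by
  classical
  induction k generalizing g with
  | zero =>
    change P {ω | (⊤ : SimpleGraph (Fin n)) = g} = PMF.pure ⊤ g
    rw [PMF.pure_apply]
    by_cases hg : g = ⊤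
    · rw [if_pos hg, hg]
      simp
    · rw [if_neg hg]
      have : {ω : Ω | (⊤ : SimpleGraph (Fin n)) = g} = ∅ :=
        Set.eq_empty_iff_forall_notMem.2 fun ω h => hg (Eq.symm h)
      rw [this, measure_empty]
  | succ k ih =>
    have hk' : k ≤ N := (Nat.le_succ k).trans hk
    have h1 := sum_fib P (hist T k) (meas_hist_fib T hm k)
      {ω | Hs (fun i => T i ω) (k + 1) = g}
    rw [h1]
    have h2 : ∀ t : Fin k → Finset (Fin n),
        P (hist T k ⁻¹' {t} ∩ {ω | Hs (fun i => T i ω) (k + 1) = g}) =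
        P (hist T k ⁻¹' {t}) * step (Hs (ext t) k) g := fun t =>
      step_law P T hm (hu k hk) t g
    rw [Finset.sum_congr rfl fun t _ => h2 t]
    change _ = ((processFrom (⊤ : SimpleGraph (Fin n)) k).bind step) g
    rw [PMF.bind_apply, tsum_fintype]
    have h3 : ∀ g' : SimpleGraph (Fin n), processFrom (⊤ : SimpleGraph (Fin n)) k g' =
        ∑ t : Fin k → Finset (Fin n), if Hs (ext t) k = g' then P (hist T k ⁻¹' {t}) else 0 := by
      intro g'
      rw [← ih hk' g', sum_fib P (hist T k) (meas_hist_fib T hm k)]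
      refine Finset.sum_congr rfl fun t _ => ?_
      have h4 : ∀ ω ∈ hist T k ⁻¹' {t}, Hs (fun i => T i ω) k = Hs (ext t) k := by
        intro ω hω
        rw [Hs_hist]
        rw [Set.mem_preimage, Set.mem_singleton_iff] at hω
        rw [hω]
      by_cases hg : Hs (ext t) k = g'
      · rw [if_pos hg]
        congr 1
        exact Set.inter_eq_left.2 fun ω hω => (h4 ω hω).trans hg
      · rw [if_neg hg]
        refine measure_zero_of_forall P ?_
        rintro ω ⟨hω, h5⟩
        exact hg ((h4 ω hω).symm.trans h5)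
    simp only [h3, Finset.sum_mul]
    rw [Finset.sum_comm]
    refine Finset.sum_congr rfl fun t _ => ?_
    simp only [ite_mul, zero_mul]
    rw [Finset.sum_ite_eq]
    rw [if_pos (Finset.mem_univ _)]

end

end Vale.Agent.P046D
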