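import Mathlib

/-!
# Random triangle removal, as a sequence of random triangles

`rest t k` : the graph left when the edges of the triangles `t 0, …, t (k - 1)` are deleted from the
complete graph.
`TriangleRemoval P T` : `T 0, T 1, …` are the triangles chosen by the random triangle removal process:
given the first `k` choices, and as long as the current graph has a triangle, the next choice is
uniformly distributed on the triangles of the current graph.
`leave T ω` : the final graph, i.e. the current graph at the first time when it has no triangle.
-/

open MeasureTheory ProbabilityTheory
open scoped ENNReal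

namespace Vale.Agent.P046D

/-- the graph on `n` vertices whose edges are the pairs of vertices not contained in any of the sets
`t 0, …, t (k - 1)` -/
def rest {n : ℕ} (t : ℕ → Finset (Fin n)) (k : ℕ) : SimpleGraph (Fin n) :=
  (⊤ : SimpleGraph (Fin n)).deleteEdges {e | ∃ i < k, ∀ v ∈ e, v ∈ t i}

/-- the set of triangles of a graph, as sets of three pairwise adjacent vertices -/
def triangles {n : ℕ} (G : SimpleGraph (Fin n)) : Set (Finset (Fin n)) := {s | G.IsNClique 3 s}

/-- The random sets `T 0, T 1, …` are the successive choices of the random triangle removal process on
`n` vertices: whenever `t 0, …, t (k - 1)` are possible values of the first `k` choices such that the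
current graph `rest t k` has a triangle `s`, the conditional probability that the next choice is `s`,
given the first `k` choices, is one over the number of triangles of the current graph.  (The values
of `T k` after the process has stopped are irrelevant.) -/
structure TriangleRemoval {n : ℕ} {Ω : Type*} [MeasurableSpace Ω] (P : Measure Ω)
    (T : ℕ → Ω → Finset (Fin n)) : Prop where
  measurable : ∀ (k : ℕ) (s : Finset (Fin n)), MeasurableSet {ω | T k ω = s}
  uniform : ∀ (k : ℕ) (t : ℕ → Finset (Fin n)) (s : Finset (Fin n)),
    P {ω | ∀ i < k, T i ω = t i} ≠ 0 → s ∈ triangles (rest t k) →
      P[{ω | T k ω = s} | {ω | ∀ i < k, T i ω = t i}] = ((triangles (rest t k)).ncard : ℝ≥0∞)⁻¹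

/-- The final graph: the current graph at the first time when it contains no triangle. -/
noncomputable def leave {n : ℕ} {Ω : Type*} (T : ℕ → Ω → Finset (Fin n)) (ω : Ω) :
    SimpleGraph (Fin n) :=
  rest (fun i => T i ω) (sInf {k | triangles (rest (fun i => T i ω) k) = ∅})

/-- The number `F_n` of edges of the final graph. -/
noncomputable def numLeft {n : ℕ} {Ω : Type*} (T : ℕ → Ω → Finset (Fin n)) (ω : Ω) : ℕ :=
  (leave T ω).edgeSet.ncard

end Vale.Agent.P046D
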