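import Vale.Agent.Lib.P046D.Chain

/-!
# A construction of the process
-/

open MeasureTheory ProbabilityTheory
open scoped ENNReal

namespace Vale.Agent.P046D

variable {n : ℕ}

open Classical in
/-- a uniformly random triangle -/
noncomputable def chooser (G : SimpleGraph (Fin n)) : PMF (Finset (Fin n)) :=
  if h : (G.cliqueFinset 3).Nonempty then PMF.uniformOfFinset (G.cliqueFinset 3) h
  else PMF.pure ∅

/-- the first `k` choices, followed by empty sets -/
noncomputable def run (n : ℕ) : ℕ → PMF (ℕ → Finset (Fin n))
  | 0 => PMF.pure fun _ => ∅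
  | k + 1 => (run n k).bind fun u => (chooser (rest u k)).map fun s => Function.update u k s

theorem run_succ (k : ℕ) : run n (k + 1) =
    (run n k).bind fun u => (chooser (rest u k)).map fun s => Function.update u k s := rfl

/-- the event that the first `k` choices are `t` -/
def Hist (k : ℕ) (t : ℕ → Finset (Fin n)) : Set (ℕ → Finset (Fin n)) := {u | ∀ i < k, u i = t i}

theorem run_bind (j : ℕ) (S : Set (ℕ → Finset (Fin n))) :
    (run n (j + 1)).toOuterMeasure S = ∑' u, run n j u *
      (chooser (rest u j)).toOuterMeasure {s | Function.update u j s ∈ S} := by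
  rw [run_succ, PMF.toOuterMeasure_bind_apply]
  refine tsum_congr fun u => ?_
  rw [PMF.toOuterMeasure_map_apply]
  rfl

theorem outer_univ {α : Type*} (p : PMF α) : p.toOuterMeasure Set.univ = 1 := by
  rw [PMF.toOuterMeasure_apply, Set.indicator_univ]
  exact p.tsum_coe

theorem run_hist_succ {j k : ℕ} (h : k ≤ j) (t : ℕ → Finset (Fin n)) :
    (run n (j + 1)).toOuterMeasure (Hist k t) = (run n j).toOuterMeasure (Hist k t) := by
  classical
  rw [run_bind, PMF.toOuterMeasure_apply]
  refine tsum_congr fun u => ?_
  have h1 : {s | Function.update u j s ∈ Hist k t} = if u ∈ Hist k t then Set.univ else ∅ := by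
    ext s
    have h2 : Function.update u j s ∈ Hist k t ↔ u ∈ Hist k t := by
      unfold Hist
      simp only [Set.mem_ofPred_eq]
      refine forall_congr' fun i => imp_congr_right fun hi => ?_
      rw [Function.update_of_ne (by omega)]
    by_cases hu : u ∈ Hist k t
    · simp [hu, h2]
    · simp [hu, h2]
  by_cases hu : u ∈ Hist k t
  · rw [h1, if_pos hu, outer_univ, mul_one, Set.indicator_of_mem hu]
  · rw [h1, if_neg hu, Set.indicator_of_notMem hu]
    simp

theorem run_hist {j k : ℕ} (h : k ≤ j) (t : ℕ → Finset (Fin n)) :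
    (run n j).toOuterMeasure (Hist k t) = (run n k).toOuterMeasure (Hist k t) := by
  induction j, h using Nat.le_induction with
  | base => rfl
  | succ j hj ih => rw [run_hist_succ hj, ih]

theorem run_next (k : ℕ) (t : ℕ → Finset (Fin n)) (s : Finset (Fin n)) :
    (run n (k + 1)).toOuterMeasure (Hist k t ∩ {u | u k = s}) =
      (run n k).toOuterMeasure (Hist k t) * chooser (rest t k) s := by
  classical
  rw [run_bind, PMF.toOuterMeasure_apply, ← ENNReal.tsum_mul_right]
  refine tsum_congr fun u => ?_
  by_cases hu : u ∈ Hist k t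
  · have h1 : {s' | Function.update u k s' ∈ Hist k t ∩ {u | u k = s}} = {s} := by
      ext s'
      simp only [Set.mem_ofPred_eq, Set.mem_inter_iff, Set.mem_singleton_iff,
        Function.update_self]
      constructor
      · exact fun h => h.2
      · intro h
        refine ⟨fun i hi => ?_, h⟩
        rw [Function.update_of_ne hi.ne]
        exact hu i hi
    have h2 : rest u k = rest t k := rest_congr hu
    rw [h1, Set.indicator_of_mem hu, h2, PMF.toOuterMeasure_apply_singleton]
  · have h1 : {s' | Function.update u k s' ∈ Hist k t ∩ {u | u k = s}} = ∅ := by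
      refine Set.eq_empty_iff_forall_notMem.2 fun s' hs' => hu fun i hi => ?_
      have h3 : Function.update u k s' i = t i := hs'.1 i hi
      rwa [Function.update_of_ne hi.ne] at h3
    rw [h1, Set.indicator_of_notMem hu, zero_mul]
    simp

theorem hist_inter (k : ℕ) (t : ℕ → Finset (Fin n)) (s : Finset (Fin n)) :
    Hist k t ∩ {u | u k = s} = Hist (k + 1) (Function.update t k s) := by
  ext u
  constructor
  · rintro ⟨h1, h2⟩ i hi
    rcases Nat.lt_succ_iff_lt_or_eq.1 hi with h3 | rfl
    · rw [Function.update_of_ne h3.ne]
      exact h1 i h3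
    · rw [Function.update_self]
      exact h2
  · intro h
    refine ⟨fun i hi => ?_, ?_⟩
    · have h3 := h i (hi.trans (Nat.lt_succ_self k))
      rwa [Function.update_of_ne hi.ne] at h3
    · have h3 := h k (Nat.lt_succ_self k)
      rwa [Function.update_self] at h3

open Classical in
theorem run_unif {k N : ℕ} (hk : k < N) (t : ℕ → Finset (Fin n)) (s : Finset (Fin n))
    (hs : s ∈ triangles (rest t k)) :
    (run n N).toOuterMeasure (Hist k t ∩ {u | u k = s}) =
      (run n N).toOuterMeasure (Hist k t) * ((triangles (rest t k)).ncard : ℝ≥0∞)⁻¹ := by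
  have hs' : s ∈ (rest t k).cliqueFinset 3 := SimpleGraph.mem_cliqueFinset_iff.2 hs
  have hne : ((rest t k).cliqueFinset 3).Nonempty := ⟨s, hs'⟩
  have h1 : chooser (rest t k) s = ((triangles (rest t k)).ncard : ℝ≥0∞)⁻¹ := by
    unfold chooser
    rw [dif_pos hne, PMF.uniformOfFinset_apply_of_mem hne hs', card_triangles]
  rw [hist_inter, run_hist hk, ← hist_inter, run_next, h1, run_hist hk.le]

end Vale.Agent.P046D
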