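import Vale.Agent.Lib.P046D.Main
import Vale.Agent.Lib.P046D.Run

/-!
# Existence of the random triangle removal process
-/

open MeasureTheory ProbabilityTheory
open scoped ENNReal

namespace Vale.Agent.P046D

variable {n : ℕ}

/-- a copy of the space of sequences of vertex sets, with all subsets measurable -/
def Seq (n : ℕ) : Type := ℕ → Finset (Fin n)

instance (n : ℕ) : MeasurableSpace (Seq n) := ⊤

theorem meas_top (S : Set (Seq n)) : MeasurableSet S := trivial

theorem exists_process (n : ℕ) : ∃ (Ω : Type) (_ : MeasurableSpace Ω) (P : Measure Ω)
    (T : ℕ → Ω → Finset (Fin n)), IsProbabilityMeasure P ∧ TriangleRemoval P T := by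
  let p : PMF (Seq n) := run n (n.choose 2)
  let P : Measure (Seq n) := p.toMeasure
  let T : ℕ → Seq n → Finset (Fin n) := fun k u => u k
  have hP : IsProbabilityMeasure P := PMF.toMeasure.isProbabilityMeasure p
  have hm : ∀ k s, MeasurableSet {u | T k u = s} := fun k s => meas_top _
  have hPo : ∀ S : Set (Seq n), P S = p.toOuterMeasure S := fun S =>
    PMF.toMeasure_apply_eq_toOuterMeasure_apply _ (meas_top S)
  have hlt : ∀ k < n.choose 2, Unif P T k := by
    intro k hk t s hs
    rw [hPo, hPo]
    exact run_unif hk t s hs
  have hfree := ae_free hm hlt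
  have hall : ∀ k, Unif P T k := by
    intro k t s hs
    rcases lt_or_ge k (n.choose 2) with hk | hk
    · exact hlt k hk t s hs
    · have h0 : P {u | ∀ i < k, T i u = t i} = 0 := by
        refine measure_mono_null ?_ hfree
        intro u hu
        have h1 : rest (fun i => T i u) k = rest t k := rest_congr hu
        have h2 : ¬ (rest (fun i => T i u) (n.choose 2)).CliqueFree 3 := by
          intro h3
          have h4 := rest_free_mono (fun i => T i u) hk h3
          rw [h1] at h4
          exact h4 s hs
        change ¬ (Hs (fun i => T i u) (n.choose 2)).CliqueFree 3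
        rw [Hs_eq_of_rest_not h2]
        exact h2
      rw [h0, zero_mul]
      exact measure_mono_null Set.inter_subset_left h0
  exact ⟨Seq n, inferInstance, P, T, hP, unif_imp hm hall⟩

end Vale.Agent.P046D
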