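import Vale.Agent.Lib.P046D.Chain
import Vale.Agent.Lib.P046.Concl

/-!
# The limit theorem for the random triangle removal process, for random variables
-/

open MeasureTheory ProbabilityTheory Filter Topology
open scoped ENNReal

namespace Vale.Agent.P046D

open Vale.Agent.P046 (removeTriangle step processFrom finalGraph)

variable {n : ℕ}

section

variable {Ω : Type*} [MeasurableSpace Ω] {P : Measure Ω} {T : ℕ → Ω → Finset (Fin n)}

theorem TriangleRemoval.unif [IsProbabilityMeasure P] (h : TriangleRemoval P T) (k : ℕ) :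
    Unif P T k := by
  intro t s hs
  by_cases h0 : P {ω | ∀ i < k, T i ω = t i} = 0
  · rw [h0, zero_mul]
    exact measure_mono_null Set.inter_subset_left h0
  · have h1 := h.uniform k t s h0 hs
    rw [← h1, mul_comm]
    exact (cond_mul_eq_inter (meas_hist T h.measurable k t) {ω | T k ω = s} P).symm

theorem unif_imp [IsProbabilityMeasure P] (hm : ∀ k s, MeasurableSet {ω | T k ω = s})
    (hu : ∀ k, Unif P T k) : TriangleRemoval P T := by
  refine ⟨hm, fun k t s h0 hs => ?_⟩
  rw [cond_apply (meas_hist T hm k t), hu k t s hs, ← mul_assoc,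
    ENNReal.inv_mul_cancel h0 (measure_ne_top P _), one_mul]

theorem ae_free [IsProbabilityMeasure P] (hm : ∀ k s, MeasurableSet {ω | T k ω = s})
    (hu : ∀ k < n.choose 2, Unif P T k) :
    P {ω | ¬ (Hs (fun i => T i ω) (n.choose 2)).CliqueFree 3} = 0 := by
  classical
  have h1 : {ω | ¬ (Hs (fun i => T i ω) (n.choose 2)).CliqueFree 3} =
      ⋃ g ∈ (Finset.univ.filter fun g : SimpleGraph (Fin n) => ¬ g.CliqueFree 3),
        {ω | Hs (fun i => T i ω) (n.choose 2) = g} := by
    ext ω
    simp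
  rw [h1]
  refine (measure_biUnion_null_iff (Finset.countable_toSet _)).2 fun g hg => ?_
  rw [law_Hs P T hm hu le_rfl]
  have hg' : ¬ g.CliqueFree 3 := by
    have := Finset.mem_coe.1 hg
    exact (Finset.mem_filter.1 this).2
  by_contra h2
  exact hg' (Vale.Agent.P046.final_cliqueFree n g ((PMF.mem_support_iff _ _).2 h2))

theorem ae_leave [IsProbabilityMeasure P] (h : TriangleRemoval P T) :
    ∀ᵐ ω ∂P, (Hs (fun i => T i ω) (n.choose 2)).CliqueFree 3 ∧
      leave T ω = Hs (fun i => T i ω) (n.choose 2) := by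
  have h1 : ∀ᵐ ω ∂P, (Hs (fun i => T i ω) (n.choose 2)).CliqueFree 3 :=
    ae_iff.2 (ae_free h.measurable fun k _ => h.unif k)
  filter_upwards [h1] with ω hω
  exact ⟨hω, rest_stop hω⟩

theorem ae_stops [IsProbabilityMeasure P] (h : TriangleRemoval P T) :
    ∀ᵐ ω ∂P, ∃ k, triangles (rest (fun i => T i ω) k) = ∅ := by
  filter_upwards [ae_leave h] with ω hω
  refine ⟨sInf {k | triangles (rest (fun i => T i ω) k) = ∅}, ?_⟩
  rw [triangles_empty_iff, rest_stop hω.1]
  exact hω.1

theorem law_leave [IsProbabilityMeasure P] (h : TriangleRemoval P T)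
    (S : Set (SimpleGraph (Fin n))) :
    P {ω | leave T ω ∈ S} = (finalGraph n).toOuterMeasure S := by
  classical
  have h1 : P {ω | leave T ω ∈ S} = P {ω | Hs (fun i => T i ω) (n.choose 2) ∈ S} := by
    refine measure_congr ?_
    filter_upwards [ae_leave h] with ω hω
    apply propext
    change leave T ω ∈ S ↔ Hs (fun i => T i ω) (n.choose 2) ∈ S
    rw [hω.2]
  have h2 := sum_measure_preimage_singleton (μ := P) (S.toFinset)
    (f := fun ω => Hs (fun i => T i ω) (n.choose 2)) (fun g _ => meas_Hs T h.measurable _ {g})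
  rw [h1, PMF.toOuterMeasure_apply, tsum_fintype]
  have h3 : {ω | Hs (fun i => T i ω) (n.choose 2) ∈ S} =
      (fun ω => Hs (fun i => T i ω) (n.choose 2)) ⁻¹' ↑(S.toFinset) := by
    rw [Set.coe_toFinset]
    rfl
  rw [h3, ← h2, ← Finset.sum_subset (Finset.subset_univ S.toFinset)]
  · refine Finset.sum_congr rfl fun g hg => ?_
    rw [Set.indicator_of_mem (Set.mem_toFinset.1 hg)]
    exact law_Hs P T h.measurable (fun k _ => h.unif k) le_rfl g
  · intro g _ hg
    rw [Set.indicator_of_notMem]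
    exact fun h' => hg (Set.mem_toFinset.2 h')

theorem mean_leave [IsProbabilityMeasure P] (h : TriangleRemoval P T) :
    ∫ ω, (numLeft T ω : ℝ) ∂P =
      ∑ G : SimpleGraph (Fin n), (finalGraph n G).toReal * (Nat.card G.edgeSet : ℝ) := by
  classical
  have h1 : ∫ ω, (numLeft T ω : ℝ) ∂P =
      ∫ ω, ∑ G : SimpleGraph (Fin n), {ω | Hs (fun i => T i ω) (n.choose 2) = G}.indicator
        (fun _ => (Nat.card G.edgeSet : ℝ)) ω ∂P := by
    refine integral_congr_ae ?_
    filter_upwards [ae_leave h] with ω hω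
    rw [Finset.sum_eq_single (Hs (fun i => T i ω) (n.choose 2))]
    · rw [Set.indicator_of_mem (by exact rfl)]
      unfold numLeft
      rw [hω.2]
      rfl
    · intro G _ hG
      rw [Set.indicator_of_notMem]
      exact fun h' => hG h'.symm
    · intro h'
      exact absurd (Finset.mem_univ _) h'
  have hmG : ∀ G : SimpleGraph (Fin n),
      MeasurableSet {ω | Hs (fun i => T i ω) (n.choose 2) = G} := fun G =>
    meas_Hs T h.measurable _ {G}
  rw [h1, integral_finsetSum]
  · refine Finset.sum_congr rfl fun G _ => ?_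
    rw [integral_indicator_const _ (hmG G), smul_eq_mul]
    congr 1
    rw [Measure.real, law_Hs P T h.measurable (fun k _ => h.unif k) le_rfl G]
    rfl
  · intro G _
    exact (integrable_const _).indicator (hmG G)

end

universe u

theorem main (Ω : ℕ → Type u) [∀ n, MeasurableSpace (Ω n)] (P : ∀ n, Measure (Ω n))
    [∀ n, IsProbabilityMeasure (P n)] (T : ∀ n, ℕ → Ω n → Finset (Fin n))
    (h : ∀ n, TriangleRemoval (P n) (T n)) :
    (∀ ε : ℝ, 0 < ε → Tendsto (fun n : ℕ => P n
      {ω | ε ≤ |(numLeft (T n) ω : ℝ) / (n : ℝ) ^ (3 / 2 : ℝ) - 1 / (2 * √2)|}) atTop (𝓝 0)) ∧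
    Tendsto (fun n : ℕ => (∫ ω, (numLeft (T n) ω : ℝ) ∂(P n)) / (n : ℝ) ^ (3 / 2 : ℝ)) atTop
      (𝓝 (1 / (2 * √2))) := by
  obtain ⟨-, h1, h2⟩ := Vale.Agent.P046.final_theorem'
  constructor
  · intro ε hε
    refine tendsto_of_tendsto_of_tendsto_of_le_of_le tendsto_const_nhds (h1 (ε / 2) (half_pos hε))
      (fun _ => bot_le) fun n => ?_
    have h3 := law_leave (h n) {G | ε ≤ |(Nat.card G.edgeSet : ℝ) / (n : ℝ) ^ (3 / 2 : ℝ) -
      1 / (2 * √2)|}
    refine le_trans (le_of_eq h3) ((finalGraph n).toOuterMeasure.mono ?_)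
    intro G hG
    exact (half_lt_self hε).trans_le hG
  · refine h2.congr fun n => ?_
    rw [mean_leave (h n)]

end Vale.Agent.P046D
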